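import Vale.Agent.P194.VirtLI.Tower
import Vale.Agent.P194.Main

/-!
Stable finiteness passes from a group to its extensions by locally indicable kernels.
-/

namespace Vale.Agent.P194.Sofic

open MonoidAlgebra Matrix Vale.Agent.P194.VirtLI

variable {K : Type} [Field K] {G Q : Type} [Group G] [Group Q] (π : G →* Q)

/-- A section over the range. -/
noncomputable def sec (q : Q) : G := Function.invFun π q

lemma pi_sec (g : G) : π (sec π (π g)) = π g := Function.invFun_eq ⟨g, rfl⟩

/-- The fibre over `q`, read in the group algebra of the kernel. -/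
noncomputable def dec (q : Q) : MonoidAlgebra K G →ₗ[K] MonoidAlgebra K π.ker :=
  (coeffLinearEquiv K).symm.toLinearMap ∘ₗ
    Finsupp.lcomapDomain (fun v : π.ker => (v : G) * sec π q)
      (fun v w h => Subtype.ext (mul_right_cancel h)) ∘ₗ
    (coeffLinearEquiv K).toLinearMap

lemma coeff_dec (q : Q) (x : MonoidAlgebra K G) (v : π.ker) :
    (dec π q x).coeff v = x.coeff ((v : G) * sec π q) := by
  simp [dec, Finsupp.lcomapDomain, coeffLinearEquiv]

lemma dec_single_mul (q : Q) (v : π.ker) (c : K) (z : MonoidAlgebra K G) :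
    dec π q (single (v : G) c * z) = single v c * dec π q z := by
  refine coeff_injective (Finsupp.ext fun u => ?_)
  rw [coeff_dec, coeff_single_mul_apply, coeff_single_mul_apply, coeff_dec]
  simp [mul_assoc]

lemma dec_single (g : G) (c : K) :
    dec π (π g) (single g c) =
      single (⟨g * (sec π (π g))⁻¹, by simp [pi_sec]⟩ : π.ker) c := by
  classical
  refine coeff_injective (Finsupp.ext fun u => ?_)
  rw [coeff_dec]
  simp only [coeff_single, Finsupp.single_apply]
  refine if_congr ⟨fun h => Subtype.ext ?_, fun h => ?_⟩ rfl rfl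
  · exact mul_inv_eq_iff_eq_mul.2 h
  · rw [← h]; group

lemma dec_single_of_ne {q : Q} (hq : π (sec π q) = q) (g : G) (c : K) (h : π g ≠ q) :
    dec π q (single g c) = 0 := by
  classical
  refine coeff_injective (Finsupp.ext fun u => ?_)
  rw [coeff_dec]
  simp only [coeff_single, coeff_zero, Finsupp.zero_apply]
  refine Finsupp.single_eq_of_ne' fun he => h ?_
  rw [he, map_mul, hq, MonoidHom.mem_ker.1 u.2, one_mul]

lemma eps_dec {q : Q} (hq : π (sec π q) = q) (z : MonoidAlgebra K G) :
    eps (dec π q z) = (mapDomainRingHom K π z).coeff q := by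
  classical
  induction z using MonoidAlgebra.induction_linear with
  | zero => simp
  | add x y hx hy => simp [hx, hy, Finsupp.mapDomain_add]
  | single g c =>
    by_cases h : π g = q
    · subst h
      rw [dec_single, eps_single]
      simp
    · rw [dec_single_of_ne π hq g c h, map_zero]
      simp [Ne.symm h]

/-- Multiplication seen in coset coordinates. -/
lemma dec_mul (S : Finset Q) (q' : Q) (x m : MonoidAlgebra K G)
    (hx : ∀ g ∈ x.coeff.support, π g ∈ S) (hS : ∀ q ∈ S, π (sec π q) = q) :
    dec π q' (x * m) = ∑ q ∈ S, dec π q x * dec π q' (single (sec π q) 1 * m) := by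
  classical
  conv_lhs => rw [eq_sum_single x]
  conv_rhs => rw [eq_sum_single x]
  simp only [map_sum, Finset.sum_mul]
  rw [Finset.sum_comm]
  refine Finset.sum_congr rfl fun g hg => ?_
  rw [Finset.sum_eq_single_of_mem (π g) (hx g hg) (fun q hq hne => by
    rw [dec_single_of_ne π (hS q hq) g _ (Ne.symm hne), zero_mul]), dec_single,
    ← dec_single_mul, ← mul_assoc, single_mul_single, mul_one]
  congr 2
  group

variable {n : ℕ}

/-- A matrix which is the identity modulo a locally indicable kernel acts injectively. -/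
lemma rowInjective_of_image_one (hLI : LocallyIndicable π.ker)
    (M : Matrix (Fin n) (Fin n) (MonoidAlgebra K G)) (hM : mm π M = 1) : RowInjective M := by
  classical
  intro x hx
  let S : Finset Q := Finset.univ.biUnion fun i => ((x i).coeff.support).image π
  have hS : ∀ q ∈ S, π (sec π q) = q := by
    intro q hq
    simp only [S, Finset.mem_biUnion, Finset.mem_image] at hq
    obtain ⟨i, _, g, _, rfl⟩ := hq
    exact pi_sec π g
  have hxS : ∀ i, ∀ g ∈ (x i).coeff.support, π g ∈ S := fun i g hg =>
    Finset.mem_biUnion.2 ⟨i, Finset.mem_univ _, Finset.mem_image_of_mem π hg⟩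
  let W : Matrix (Fin n × S) (Fin n × S) (MonoidAlgebra K π.ker) :=
    Matrix.of fun a b => dec π b.2.1 (single (sec π a.2.1) 1 * M a.1 b.1)
  have hW : W.map eps = 1 := by
    ext ⟨i, q, hq⟩ ⟨j, q', hq'⟩
    have hMij : mapDomainRingHom K π (M i j) = (1 : Matrix (Fin n) (Fin n) (MonoidAlgebra K Q)) i j := by
      rw [← hM]; rfl
    simp only [Matrix.map_apply, W, Matrix.of_apply]
    rw [eps_dec π (hS q' hq'), map_mul, hMij]
    by_cases hij : i = j
    · subst hij
      simp [Matrix.one_apply, mapDomainRingHom, hS q hq, Finsupp.single_apply]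
    · simp [Matrix.one_apply, hij]
  have hinj := rowInjective_of_eps hLI W (fun y hy => by rwa [hW, vecMul_one] at hy)
  have hc : (fun a : Fin n × S => dec π a.2.1 (x a.1)) ᵥ* W = 0 := by
    funext b
    show ∑ a, _ * W a b = 0
    have h0 : dec π b.2.1 (∑ i, x i * M i b.1) = 0 := by
      have : ∑ i, x i * M i b.1 = 0 := congrFun hx b.1
      rw [this, map_zero]
    rw [map_sum] at h0
    rw [Fintype.sum_prod_type, ← h0]
    refine Finset.sum_congr rfl fun i _ => ?_
    rw [dec_mul π S b.2.1 (x i) (M i b.1) (hxS i) hS, ← Finset.sum_coe_sort S]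
    rfl
  have h := hinj _ hc
  funext i
  refine coeff_injective (Finsupp.ext fun g => ?_)
  by_contra hg
  have hg' : g ∈ (x i).coeff.support := Finsupp.mem_support_iff.2 (by simpa using hg)
  have := congrArg (fun z : MonoidAlgebra K π.ker =>
    z.coeff ⟨g * (sec π (π g))⁻¹, by simp [pi_sec]⟩) (congrFun h (i, ⟨π g, hxS i g hg'⟩))
  simp only [coeff_dec, Pi.zero_apply, coeff_zero, Finsupp.zero_apply] at this
  rw [inv_mul_cancel_right] at this
  exact (Finsupp.mem_support_iff.1 hg') this

/-- Stable finiteness of an extension with locally indicable kernel. -/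
theorem isStablyFinite_of_li_kernel (hLI : LocallyIndicable π.ker)
    (hQ : IsStablyFiniteRing (MonoidAlgebra K Q)) : IsStablyFiniteRing (MonoidAlgebra K G) := by
  refine ⟨fun n => ⟨fun {a b} hab => ?_⟩⟩
  have hidem : (1 - b * a) * (b * a) = 0 := by
    rw [sub_mul, one_mul, show b * a * (b * a) = b * (a * b) * a by simp only [mul_assoc], hab,
      mul_one, sub_self]
  have himg : mm π (b * a) = 1 := by
    have h1 : mm π a * mm π b = 1 := by rw [← map_mul, hab, map_one]
    rw [map_mul]
    exact mul_eq_one_symm h1
  have hinj := rowInjective_of_image_one π hLI (b * a) himg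
  have : (1 - b * a) = 0 := by
    funext i
    exact hinj _ (by rw [← mul_apply_eq_vecMul, hidem]; rfl)
  exact (sub_eq_zero.1 this).symm

end Vale.Agent.P194.Sofic
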