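import Vale.Agent.P194.Sofic.Rank
import Vale.Agent.P194.Sofic.Kernel

/-!
Locally indicable by sofic groups: finite products and stable finiteness.
-/

namespace Vale.Agent.P194.Sofic

open Vale.Agent.P194.VirtLI

variable {K : Type} [Field K]

/-- All matrix rings over the group algebra are directly finite. -/
def StablyFinite (K : Type) [Field K] (G : Type) [Group G] : Prop :=
  ∀ (n : ℕ) (a b : Matrix (Fin n) (Fin n) (MonoidAlgebra K G)), a * b = 1 → b * a = 1

/-- A group with a map to a sofic group whose kernel is locally indicable. -/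
def LIBySofic (G : Type) [Group G] : Prop :=
  ∃ (S : Type) (_ : Group S) (ρ : G →* S), Sofic S ∧ LocallyIndicable ρ.ker

theorem isStablyFinite_of_liBySofic {G : Type} [Group G] (h : LIBySofic G) :
    IsStablyFiniteRing (MonoidAlgebra K G) := by
  obtain ⟨S, _, ρ, hS, hρ⟩ := h
  exact isStablyFinite_of_li_kernel ρ hρ (isStablyFinite_of_sofic hS)

variable {ι : Type}

lemma mul_ncard_coord_le [Fintype ι] [DecidableEq ι] (V : ι → Type) [∀ t, Fintype (V t)] (t : ι) (A : Set (V t))
    (m : ℕ) (hA : m * A.ncard ≤ Fintype.card (V t)) :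
    m * {v : ∀ t, V t | v t ∈ A}.ncard ≤ Fintype.card (∀ t, V t) := by
  classical
  have h1 : {v : ∀ t, V t | v t ∈ A} =
      ↑(Fintype.piFinset (Function.update (fun s => (Finset.univ : Finset (V s))) t A.toFinset)) := by
    ext v
    simp only [Set.mem_ofPred_eq, Finset.mem_coe, Fintype.mem_piFinset]
    constructor
    · intro hv s
      by_cases hs : s = t
      · subst hs; simpa using hv
      · simp [hs]
    · intro hv; simpa using hv t
  rw [h1, Set.ncard_coe_finset, Fintype.card_piFinset, Fintype.card_pi,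
    ← Finset.mul_prod_erase _ _ (Finset.mem_univ t),
    ← Finset.mul_prod_erase _ (fun s => Fintype.card (V s)) (Finset.mem_univ t)]
  rw [Function.update_self, ← Set.ncard_eq_toFinset_card', ← mul_assoc,
    Finset.prod_congr rfl (g := fun s => Fintype.card (V s)) fun s hs => by
      rw [Function.update_of_ne (Finset.ne_of_mem_erase hs), Finset.card_univ]]
  exact Nat.mul_le_mul_right _ hA

lemma sofic_pi [Finite ι] (Q : ι → Type) [∀ t, Group (Q t)] (h : ∀ t, Sofic (Q t)) :
    Sofic (∀ t, Q t) := by
  classical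
  have : Fintype ι := Fintype.ofFinite ι
  intro F k
  choose V hV hne σ hmul hfix using fun t =>
    h t (F.image fun g => g t) (k * (Fintype.card ι + 1))
  refine ⟨∀ t, V t, inferInstance, inferInstance, fun g => Equiv.piCongrRight fun t => σ t (g t),
    fun g hg g' hg' => ?_, fun g hg hg1 => ?_⟩
  · have hsub : {v : ∀ t, V t | (Equiv.piCongrRight fun t => σ t ((g * g') t)) v ≠
        (Equiv.piCongrRight fun t => σ t (g t)) ((Equiv.piCongrRight fun t => σ t (g' t)) v)} ⊆
        ⋃ t ∈ (Finset.univ : Finset ι),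
          {v : ∀ t, V t | v t ∈ {w | σ t (g t * g' t) w ≠ σ t (g t) (σ t (g' t) w)}} := by
      intro v hv
      by_contra hc
      refine hv (funext fun t => ?_)
      by_contra ht
      exact hc (Set.mem_biUnion (Finset.mem_univ t) (by simpa using ht))
    refine (Nat.mul_le_mul_left k ((Set.ncard_le_ncard hsub (Set.toFinite _)).trans
      (Finset.set_ncard_biUnion_le _ _))).trans ?_
    have hsum := Finset.sum_le_sum fun t (_ : t ∈ (Finset.univ : Finset ι)) =>
      mul_ncard_coord_le V t _ (k * (Fintype.card ι + 1))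
        (hmul t (g t) (Finset.mem_image_of_mem _ hg) (g' t) (Finset.mem_image_of_mem _ hg'))
    rw [Finset.sum_const, smul_eq_mul, Finset.card_univ, ← Finset.mul_sum, mul_comm k,
      mul_assoc] at hsum
    exact Nat.le_of_mul_le_mul_left (hsum.trans (Nat.mul_le_mul_right _ (Nat.le_succ _)))
      (Nat.succ_pos _)
  · obtain ⟨t, ht⟩ : ∃ t, g t ≠ 1 := by
      by_contra hc
      push Not at hc
      exact hg1 (funext hc)
    have hsub : {v : ∀ t, V t | (Equiv.piCongrRight fun t => σ t (g t)) v = v} ⊆
        {v : ∀ t, V t | v t ∈ {w | σ t (g t) w = w}} := fun v hv => congrFun hv t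
    exact (Nat.mul_le_mul_left k (Set.ncard_le_ncard hsub (Set.toFinite _))).trans
      (mul_ncard_coord_le V t _ k ((Nat.mul_le_mul_right _ (Nat.le_mul_of_pos_right k
        (Nat.succ_pos _))).trans (hfix t (g t) (Finset.mem_image_of_mem _ hg) ht)))

lemma liBySofic_pi [Finite ι] (Q : ι → Type) [∀ t, Group (Q t)] (h : ∀ t, LIBySofic (Q t)) :
    LIBySofic (∀ t, Q t) := by
  classical
  choose S hS ρ hsof hli using h
  let Ρ : (∀ t, Q t) →* (∀ t, S t) :=
    MonoidHom.pi fun t => (ρ t).comp (Pi.evalMonoidHom Q t)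
  refine ⟨∀ t, S t, inferInstance, Ρ, sofic_pi S hsof, fun H hH hne => ?_⟩
  obtain ⟨u, hu, hu1⟩ := (Subgroup.bot_or_exists_ne_one H).resolve_left hne
  obtain ⟨t, ht⟩ : ∃ t, (u : ∀ t, Q t) t ≠ 1 := by
    by_contra hc
    push Not at hc
    exact hu1 (Subtype.ext (funext hc))
  let π : Ρ.ker →* (ρ t).ker :=
    ((Pi.evalMonoidHom Q t).comp (Subgroup.subtype _)).codRestrict (ρ t).ker fun v => by
      rw [MonoidHom.mem_ker]
      exact congrFun (MonoidHom.mem_ker.1 v.2) t
  have hnb : H.map π ≠ ⊥ := fun he => ht (by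
    have : π u ∈ H.map π := Subgroup.mem_map_of_mem π hu
    rw [he, Subgroup.mem_bot] at this
    exact congrArg Subtype.val this)
  have hfg : (H.map π).FG := (Subgroup.fg_iff_submonoid_fg _).2
    (((Subgroup.fg_iff_submonoid_fg H).1 hH).map π)
  obtain ⟨ψ, hψ⟩ := hli t (H.map π) hfg hnb
  refine ⟨ψ.comp (π.subgroupMap H), fun he => hψ (MonoidHom.ext fun v => ?_)⟩
  obtain ⟨w, rfl⟩ := π.subgroupMap_surjective H v
  exact DFunLike.congr_fun he w

/-- A locally indicable subgroup of finite index gives a locally indicable by finite group. -/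
lemma liBySofic_of_finiteIndex {G : Type} [Group G] (L : Subgroup G) [L.FiniteIndex]
    (hL : LocallyIndicable L) : LIBySofic G := by
  refine ⟨G ⧸ L.normalCore, inferInstance, QuotientGroup.mk' _, sofic_of_finite _, ?_⟩
  intro H hH hne
  let i : (QuotientGroup.mk' L.normalCore).ker →* L := Subgroup.inclusion (by
    rw [QuotientGroup.ker_mk']; exact L.normalCore_le)
  have hi : Function.Injective i := Subgroup.inclusion_injective _
  have hfg : (H.map i).FG := (Subgroup.fg_iff_submonoid_fg _).2
    (((Subgroup.fg_iff_submonoid_fg H).1 hH).map i)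
  obtain ⟨ψ, hψ⟩ := hL (H.map i) hfg (fun h => hne ((Subgroup.map_eq_bot_iff_of_injective H hi).1 h))
  refine ⟨ψ.comp (i.subgroupMap H), fun he => hψ (MonoidHom.ext fun v => ?_)⟩
  obtain ⟨w, rfl⟩ := i.subgroupMap_surjective H v
  exact DFunLike.congr_fun he w

end Vale.Agent.P194.Sofic
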