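import Vale.Agent.P194.Core

/-!
Stable finiteness of group algebras of sofic groups over fields.
-/

namespace Vale.Agent.P194.Sofic

open MonoidAlgebra Matrix

/-- A sofic group: finite permutation models in which a given finite set multiplies correctly
and moves, outside a fraction `1 / k` of the points. -/
def Sofic (Q : Type) [Group Q] : Prop :=
  ∀ (F : Finset Q) (k : ℕ), ∃ (V : Type) (_ : Fintype V) (_ : Nonempty V) (σ : Q → Equiv.Perm V),
    (∀ g ∈ F, ∀ h ∈ F, k * {v : V | σ (g * h) v ≠ σ g (σ h v)}.ncard ≤ Fintype.card V) ∧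
    ∀ g ∈ F, g ≠ 1 → k * {v : V | σ g v = v}.ncard ≤ Fintype.card V

lemma sofic_of_finite (Q : Type) [Group Q] [Finite Q] : Sofic Q := by
  intro F k
  refine ⟨Q, Fintype.ofFinite Q, ⟨1⟩, fun g => Equiv.mulLeft g, fun g _ h _ => ?_,
    fun g _ hg => ?_⟩
  · simp [mul_assoc]
  · simp [hg]

variable {K : Type} [Field K]

section Rank

variable {ι : Type} [Fintype ι]

lemma rank_add_le' (A B : Matrix ι ι K) : (A + B).rank ≤ A.rank + B.rank := by
  rw [Matrix.rank, Matrix.rank, Matrix.rank, mulVecLin_add]
  exact (Submodule.finrank_mono (LinearMap.range_add_le _ _)).trans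
    (Submodule.finrank_add_le_finrank_add_finrank _ _)

lemma rank_le_of_cols (D : Matrix ι ι K) (s : Finset ι) (h : ∀ i, ∀ j ∉ s, D i j = 0) :
    D.rank ≤ s.card := by
  rw [← rank_transpose]
  exact rank_le_card_of_support_subset _ s fun j hj => by
    by_contra hjs
    exact hj (funext fun i => h i j hjs)

variable [DecidableEq ι]

lemma rank_one_sub_mul_comm_le (A B : Matrix ι ι K) :
    (1 - B * A).rank ≤ (1 - A * B).rank := by
  let f : LinearMap.ker (1 - A * B).mulVecLin →ₗ[K] LinearMap.ker (1 - B * A).mulVecLin :=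
    LinearMap.codRestrict _ (B.mulVecLin ∘ₗ Submodule.subtype _) fun v => by
      have hv : (A * B) *ᵥ v.1 = v.1 := (sub_eq_zero.1 (by simpa [sub_mulVec] using v.2)).symm
      simp [sub_mulVec, mulVec_mulVec, mul_assoc, ← mulVec_mulVec _ B (A * B), hv]
  have hf : Function.Injective f := by
    intro v w h
    have hv : (A * B) *ᵥ v.1 = v.1 := (sub_eq_zero.1 (by simpa [sub_mulVec] using v.2)).symm
    have hw : (A * B) *ᵥ w.1 = w.1 := (sub_eq_zero.1 (by simpa [sub_mulVec] using w.2)).symm
    have h' : B *ᵥ v.1 = B *ᵥ w.1 := congrArg Subtype.val h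
    refine Subtype.ext ?_
    rw [← hv, ← hw, ← mulVec_mulVec, h', mulVec_mulVec]
  have hker := LinearMap.finrank_le_finrank_of_injective hf
  have h1 := (1 - A * B).mulVecLin.finrank_range_add_finrank_ker
  have h2 := (1 - B * A).mulVecLin.finrank_range_add_finrank_ker
  unfold Matrix.rank
  omega

end Rank

section Model

variable {Q V : Type} [Fintype V] [DecidableEq V] (σ : Q → Equiv.Perm V)

/-- The permutation matrix of a group element in the model. -/
def pmat (g : Q) : Matrix V V K := Matrix.of fun w v => if σ g v = w then 1 else 0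

/-- The linear extension of the model. -/
noncomputable def model : MonoidAlgebra K Q →ₗ[K] Matrix V V K :=
  Finsupp.linearCombination K (pmat σ) ∘ₗ (coeffLinearEquiv K).toLinearMap

lemma model_single (g : Q) (c : K) : model σ (single g c) = c • pmat σ g := by
  simp [model, coeffLinearEquiv]

lemma model_apply (x : MonoidAlgebra K Q) (w v : V) :
    model σ x w v = ∑ g ∈ x.coeff.support, if σ g v = w then x.coeff g else 0 := by
  simp [model, coeffLinearEquiv, Finsupp.linearCombination_apply, Finsupp.sum, Matrix.sum_apply,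
    pmat]

variable [Group Q]

lemma pmat_mul_apply (g h : Q) {v : V} (hv : σ (g * h) v = σ g (σ h v)) (w : V) :
    (pmat σ g * pmat σ h : Matrix V V K) w v = (pmat σ (g * h) : Matrix V V K) w v := by
  simp [pmat, Matrix.mul_apply, hv]

lemma model_mul_apply (x y : MonoidAlgebra K Q) (v : V)
    (h : ∀ g ∈ x.coeff.support, ∀ g' ∈ y.coeff.support, σ (g * g') v = σ g (σ g' v)) (w : V) :
    (model σ x * model σ y) w v = model σ (x * y) w v := by
  have hx : ∀ z : MonoidAlgebra K Q, z = ∑ g ∈ z.coeff.support, single g (z.coeff g) := by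
    intro z
    refine coeff_injective ?_
    rw [coeff_sum]
    simp only [coeff_single]
    exact (Finsupp.sum_single z.coeff).symm
  conv_lhs => rw [hx x, hx y]
  conv_rhs => rw [hx x, hx y]
  simp only [map_sum, Finset.sum_mul, Finset.mul_sum, Matrix.sum_apply]
  refine Finset.sum_congr rfl fun g' hg' => Finset.sum_congr rfl fun g hg => ?_
  rw [single_mul_single, model_single, model_single, model_single, smul_mul_smul_comm,
    Matrix.smul_apply, Matrix.smul_apply, pmat_mul_apply σ g g' (h g hg g' hg') w]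

variable {n : ℕ}

/-- The model of a matrix over the group algebra. -/
noncomputable def rep (A : Matrix (Fin n) (Fin n) (MonoidAlgebra K Q)) :
    Matrix (Fin n × V) (Fin n × V) K :=
  Matrix.of fun a b => model σ (A a.1 b.1) a.2 b.2

lemma rep_mul_apply (A B : Matrix (Fin n) (Fin n) (MonoidAlgebra K Q)) (v : V) (j : Fin n)
    (h : ∀ g ∈ supp A, ∀ g' ∈ supp B, σ (g * g') v = σ g (σ g' v)) (a : Fin n × V) :
    (rep σ A * rep σ B) a (j, v) = rep σ (A * B) a (j, v) := by
  classical
  rw [Matrix.mul_apply, Fintype.sum_prod_type]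
  simp only [rep, Matrix.of_apply]
  rw [Matrix.mul_apply, map_sum, Matrix.sum_apply]
  refine Finset.sum_congr rfl fun i _ => ?_
  rw [← model_mul_apply σ (A a.1 i) (B i j) v (fun g hg g' hg' => h g ?_ g' ?_) a.2,
    Matrix.mul_apply]
  · exact Finset.mem_biUnion.2 ⟨(a.1, i), Finset.mem_univ _, hg⟩
  · exact Finset.mem_biUnion.2 ⟨(i, j), Finset.mem_univ _, hg'⟩

lemma rep_one_apply {v : V} (h : σ (1 * 1) v = σ 1 (σ 1 v)) (j : Fin n) (a : Fin n × V) :
    rep σ (1 : Matrix (Fin n) (Fin n) (MonoidAlgebra K Q)) a (j, v) =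
      (1 : Matrix (Fin n × V) (Fin n × V) K) a (j, v) := by
  rw [one_mul] at h
  have hv : σ 1 v = v := ((σ 1).injective h).symm
  obtain ⟨i, w⟩ := a
  by_cases hij : i = j
  · subst hij
    simp [rep, one_def, model_single, pmat, hv, Matrix.one_apply, eq_comm]
  · simp [rep, Matrix.one_apply, hij]

/-- A maximal separated set. -/
lemma exists_separated (T : Finset Q) (t₀ : Q) (U : Finset V) :
    ∃ S ⊆ U, U.card ≤ S.card * (2 * T.card + 1) ∧
      ∀ v ∈ S, ∀ v' ∈ S, v ≠ v' → ∀ g ∈ T, σ g v ≠ σ t₀ v' := by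
  induction U using Finset.strongInduction with
  | _ U ih =>
    rcases U.eq_empty_or_nonempty with rfl | ⟨v, hv⟩
    · exact ⟨∅, subset_rfl, by simp, by simp⟩
    let R : Finset V := insert v (T.image (fun g => (σ t₀).symm (σ g v)) ∪
      T.image (fun g => (σ g).symm (σ t₀ v)))
    have hR : R.card ≤ 2 * T.card + 1 := by
      refine (Finset.card_insert_le _ _).trans ?_
      have := Finset.card_union_le (T.image fun g => (σ t₀).symm (σ g v))
        (T.image fun g => (σ g).symm (σ t₀ v))
      have h1 := Finset.card_image_le (s := T) (f := fun g => (σ t₀).symm (σ g v))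
      have h2 := Finset.card_image_le (s := T) (f := fun g => (σ g).symm (σ t₀ v))
      omega
    obtain ⟨S, hSU, hS, hsep⟩ := ih (U \ R) (Finset.ssubset_iff_of_subset Finset.sdiff_subset |>.2
      ⟨v, hv, by simp [R]⟩)
    have hvS : v ∉ S := fun h => (Finset.mem_sdiff.1 (hSU h)).2 (by simp [R])
    refine ⟨insert v S, Finset.insert_subset hv (hSU.trans Finset.sdiff_subset), ?_, ?_⟩
    · rw [Finset.card_insert_of_notMem hvS, add_mul, one_mul]
      have := Finset.le_card_sdiff R U
      omega
    · intro x hx y hy hxy g hg he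
      rw [Finset.mem_insert] at hx hy
      rcases hx with rfl | hx <;> rcases hy with rfl | hy
      · exact hxy rfl
      · refine (Finset.mem_sdiff.1 (hSU hy)).2 (Finset.mem_insert_of_mem (Finset.mem_union_left _
          (Finset.mem_image.2 ⟨g, hg, ?_⟩)))
        rw [he, Equiv.symm_apply_apply]
      · refine (Finset.mem_sdiff.1 (hSU hx)).2 (Finset.mem_insert_of_mem (Finset.mem_union_right _
          (Finset.mem_image.2 ⟨g, hg, ?_⟩)))
        rw [← he, Equiv.symm_apply_apply]
      · exact hsep x hx y hy hxy g hg he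

end Model

/-- Elek-Szabo: group algebras of sofic groups over fields are stably finite. -/
theorem isStablyFinite_of_sofic {Q : Type} [Group Q] (hQ : Sofic Q) :
    IsStablyFiniteRing (MonoidAlgebra K Q) := by
  classical
  refine ⟨fun n => ⟨fun {A B} hAB => ?_⟩⟩
  by_contra hne
  obtain ⟨i, j, hE⟩ : ∃ i j, (1 - B * A) i j ≠ 0 := by
    by_contra h
    push Not at h
    exact hne (sub_eq_zero.1 (Matrix.ext h : (1 - B * A) = 0)).symm
  set E := 1 - B * A with hEdef
  let T := (E i j).coeff.support
  obtain ⟨t₀, ht₀⟩ : T.Nonempty := Finsupp.support_nonempty_iff.2 (by simpa using hE)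
  let F : Finset Q := supp A ∪ supp B ∪ T ∪ T.image (t₀⁻¹ * ·) ∪ {1, t₀}
  let M := (1 + 4 * n * (2 * T.card + 1)) * (F.card * F.card + F.card)
  obtain ⟨V, _, _, σ, hmul, hfix⟩ := hQ F (M + 1)
  let bad : Finset V := ((F ×ˢ F).biUnion fun q =>
      Finset.univ.filter fun v => σ (q.1 * q.2) v ≠ σ q.1 (σ q.2 v)) ∪
    (F.filter (· ≠ 1)).biUnion fun g => Finset.univ.filter fun v => σ g v = v
  have hbad : (M + 1) * bad.card ≤ (F.card * F.card + F.card) * Fintype.card V := by
    refine (Nat.mul_le_mul_left _ ((Finset.card_union_le _ _).trans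
      (add_le_add Finset.card_biUnion_le Finset.card_biUnion_le))).trans ?_
    rw [mul_add, Finset.mul_sum, Finset.mul_sum, add_mul]
    refine add_le_add ((Finset.sum_le_sum fun q hq => ?_).trans (le_of_eq (by
      rw [Finset.sum_const, smul_eq_mul, Finset.card_product])))
      ((Finset.sum_le_sum fun g hg => ?_).trans ((le_of_eq (Finset.sum_const _)).trans
        (Nat.mul_le_mul_right _ (Finset.card_filter_le _ _))))
    · have := hmul q.1 (Finset.mem_product.1 hq).1 q.2 (Finset.mem_product.1 hq).2
      rwa [Set.ncard_eq_toFinset_card', Set.toFinset_ofPred] at this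
    · have := hfix g (Finset.mem_filter.1 hg).1 (Finset.mem_filter.1 hg).2
      rwa [Set.ncard_eq_toFinset_card', Set.toFinset_ofPred] at this
  have hgood : ∀ v ∉ bad, ∀ g ∈ F, ∀ h ∈ F, σ (g * h) v = σ g (σ h v) := by
    intro v hv g hg h hh
    by_contra hc
    exact hv (Finset.mem_union_left _ (Finset.mem_biUnion.2
      ⟨(g, h), Finset.mem_product.2 ⟨hg, hh⟩, by simpa using hc⟩))
  have hone : (1 : Q) ∈ F := by simp [F]
  let cols : Finset (Fin n × V) := Finset.univ ×ˢ bad
  have hcols : cols.card = n * bad.card := by simp [cols]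
  have hmem : ∀ {C : Matrix (Fin n) (Fin n) (MonoidAlgebra K Q)}, C = A ∨ C = B → supp C ⊆ F := by
    rintro C (rfl | rfl) <;> intro g hg <;> simp [F, hg]
  have hmulrank : ∀ C D : Matrix (Fin n) (Fin n) (MonoidAlgebra K Q), supp C ⊆ F → supp D ⊆ F →
      (rep σ C * rep σ D - rep σ (C * D)).rank ≤ n * bad.card := by
    intro C D hC hD
    refine (rank_le_of_cols _ cols fun a b hb => ?_).trans hcols.le
    rw [Matrix.sub_apply, sub_eq_zero]
    exact rep_mul_apply σ C D b.2 b.1
      (fun g hg g' hg' => hgood b.2 (by simpa [cols] using hb) g (hC hg) g' (hD hg')) a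
  have honerank : (rep σ (1 : Matrix (Fin n) (Fin n) (MonoidAlgebra K Q)) - 1).rank ≤
      n * bad.card := by
    refine (rank_le_of_cols _ cols fun a b hb => ?_).trans hcols.le
    rw [Matrix.sub_apply, sub_eq_zero]
    exact rep_one_apply σ (hgood b.2 (by simpa [cols] using hb) 1 hone 1 hone) b.1 a
  have hAB' : (1 - rep σ A * rep σ B).rank ≤ 2 * (n * bad.card) := by
    have h1 := hmulrank A B (hmem (Or.inl rfl)) (hmem (Or.inr rfl))
    rw [hAB] at h1
    have hsplit : 1 - rep σ A * rep σ B =
        -((rep σ A * rep σ B - rep σ 1) + (rep σ 1 - 1)) := by abel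
    rw [hsplit, show ∀ Z : Matrix (Fin n × V) (Fin n × V) K, -Z = (-1) * Z by simp]
    exact (rank_mul_le_right _ _).trans ((rank_add_le' _ _).trans (by omega))
  have hup : (rep σ E).rank ≤ 4 * (n * bad.card) := by
    have h1 := hmulrank B A (hmem (Or.inr rfl)) (hmem (Or.inl rfl))
    have h2 := (rank_one_sub_mul_comm_le (rep σ A) (rep σ B)).trans hAB'
    have hsplit : rep σ E = (rep σ 1 - 1) + (1 - rep σ B * rep σ A) +
        (rep σ B * rep σ A - rep σ (B * A)) := by
      have : rep σ E = rep σ 1 - rep σ (B * A) := by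
        ext a b
        simp [rep, hEdef, Matrix.sub_apply]
      rw [this]; abel
    rw [hsplit]
    exact (rank_add_le' _ _).trans ((add_le_add (rank_add_le' _ _) le_rfl).trans (by omega))
  obtain ⟨S, hSU, hS, hsep⟩ := exists_separated σ T t₀ (Finset.univ \ bad)
  have hlow : S.card ≤ (rep σ E).rank := by
    have hsub : (rep σ E).submatrix (fun v : S => (i, σ t₀ v.1)) (fun v : S => (j, v.1)) =
        Matrix.diagonal (fun _ => (E i j).coeff t₀) := by
      ext v v'
      simp only [Matrix.submatrix_apply, rep, Matrix.of_apply, model_apply]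
      by_cases hvv : v = v'
      · subst hvv
        rw [Finset.sum_eq_single_of_mem t₀ ht₀ (fun g hg hgt => if_neg fun he => ?_), if_pos rfl,
          Matrix.diagonal_apply_eq]
        have hv : v.1 ∉ bad := (Finset.mem_sdiff.1 (hSU v.2)).2
        have hgF : t₀⁻¹ * g ∈ F := by
          simp [F, hg]
        have h := hgood v.1 hv t₀ (by simp [F]) (t₀⁻¹ * g) hgF
        rw [mul_inv_cancel_left, he] at h
        refine hv (Finset.mem_union_right _ (Finset.mem_biUnion.2 ⟨t₀⁻¹ * g,
          Finset.mem_filter.2 ⟨hgF, fun hc => hgt (inv_mul_eq_one.1 hc).symm⟩,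
          Finset.mem_filter.2 ⟨Finset.mem_univ _, ((σ t₀).injective h).symm⟩⟩))
      · rw [Finset.sum_eq_zero fun g hg => if_neg fun he => ?_, Matrix.diagonal_apply_ne _ hvv]
        exact hsep v'.1 v'.2 v.1 v.2 (fun h => hvv (Subtype.ext h.symm)) g hg he
    have := rank_submatrix_le (rep σ E) (fun v : S => (i, σ t₀ v.1)) (fun v : S => (j, v.1))
    rw [hsub, rank_diagonal] at this
    simpa [Finsupp.mem_support_iff.1 ht₀] using this
  have hcount : Fintype.card V ≤ (1 + 4 * n * (2 * T.card + 1)) * bad.card := by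
    have h1 := Finset.le_card_sdiff bad (Finset.univ : Finset V)
    rw [Finset.card_univ] at h1
    have h2 : S.card * (2 * T.card + 1) ≤ 4 * (n * bad.card) * (2 * T.card + 1) :=
      Nat.mul_le_mul_right _ (hlow.trans hup)
    calc Fintype.card V ≤ bad.card + 4 * (n * bad.card) * (2 * T.card + 1) := by omega
      _ = _ := by ring
  have h3 : (M + 1) * Fintype.card V ≤ M * Fintype.card V :=
    calc (M + 1) * Fintype.card V
        ≤ (M + 1) * ((1 + 4 * n * (2 * T.card + 1)) * bad.card) := Nat.mul_le_mul_left _ hcount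
      _ = (1 + 4 * n * (2 * T.card + 1)) * ((M + 1) * bad.card) := by ring
      _ ≤ (1 + 4 * n * (2 * T.card + 1)) * ((F.card * F.card + F.card) * Fintype.card V) :=
        Nat.mul_le_mul_left _ hbad
      _ = M * Fintype.card V := by simp only [M]; ring
  have := Fintype.card_pos (α := V)
  nlinarith

end Vale.Agent.P194.Sofic
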